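import Vale.Agent.P181.DG9.H924.E.Light
import Vale.Agent.P181.HO.Defs

set_option autoImplicit false

/-!
# P181, HO5: the hole, from the assembly with vacuum blocks and the lower bound with `R = 3`
-/

namespace Vale.Agent.P181.HO.H237

open Vale.Agent.P181.T4 (ex low low_anti)
open Vale.Agent.P181.H280 (plethMult)
open Vale.Agent.P181.H463 (gt)
open Vale.Agent.P181.PL Vale.Agent.P181.PL508
open Vale.Agent.P181.SZ (LBC LBR tl)
open Vale.Agent.P181.SZN4 (low_bound k0_facts b0_small)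
open Vale.Agent.P181.DG (gT)
open Vale.Agent.P181.DG.E924 (gt_mono_letters')

/-- The smaller shape: `c` cells removed from the rows one and two. -/
lemma exists_nu {m : ℕ} (hm : 3 ≤ m) {lam : Fin (m + 1) → ℕ} (hlam : Antitone lam) {c T : ℕ}
    (h1 : c + ex lam 3 ≤ ex lam 2) (hT : dn lam 1 + ex lam 1 ≤ T) :
    ∃ nu : Fin (m + 1) → ℕ, Antitone nu ∧ ∑ i, nu i = T ∧ ex nu 1 + c = ex lam 1 ∧
      ex nu 2 + c = ex lam 2 ∧ ∀ i, 3 ≤ i → ex nu i = ex lam i := by
  obtain ⟨g, hg⟩ : ∃ g : ℕ → ℕ, g = fun i => if i = 0 then T - (dn lam 1 - 2 * c) else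
    if i ≤ 2 then ex lam i - c else ex lam i := ⟨_, rfl⟩
  have g0 : g 0 = T - (dn lam 1 - 2 * c) := by
    rw [hg]
    rfl
  have g12 : ∀ i, 1 ≤ i → i ≤ 2 → g i = ex lam i - c := by
    intro i h1 h2
    rw [hg]
    simp only
    rw [if_neg (by omega), if_pos h2]
  have g3 : ∀ i, 3 ≤ i → g i = ex lam i := by
    intro i hi
    rw [hg]
    simp only
    rw [if_neg (by omega), if_neg (by omega)]
  obtain ⟨nu, hnu⟩ : ∃ nu : Fin (m + 1) → ℕ, nu = fun i : Fin (m + 1) => g i := ⟨_, rfl⟩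
  have hex : ∀ i, ex nu i = g i := by
    intro i
    rw [hnu]
    exact PL5.ex_fn g (fun i hi => by rw [g3 i (by omega), exge lam (by omega)]) i
  have h21 : ex lam 2 ≤ ex lam 1 := exanti hlam (by norm_num)
  have hanti : ∀ i j : ℕ, i ≤ j → g j ≤ g i := by
    intro i j hij
    have h0 : ex lam j ≤ ex lam i := exanti hlam hij
    rcases Nat.eq_zero_or_pos i with hi | hi
    · subst hi
      rw [g0]
      rcases Nat.eq_zero_or_pos j with hj | hj
      · subst hj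
        rw [g0]
      · have h3 : ex lam j ≤ ex lam 1 := exanti hlam hj
        rcases Nat.lt_or_ge j 3 with h4 | h4
        · rw [g12 j hj (by omega)]
          omega
        · rw [g3 j h4]
          omega
    · rcases Nat.lt_or_ge i 3 with h4 | h4
      · rw [g12 i hi (by omega)]
        rcases Nat.lt_or_ge j 3 with h5 | h5
        · rw [g12 j (by omega) (by omega)]
          omega
        · rw [g3 j h5]
          have h6 : ex lam j ≤ ex lam 3 := exanti hlam h5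
          have h7 : ex lam 2 ≤ ex lam i := exanti hlam (by omega)
          omega
      · rw [g3 i h4, g3 j (by omega)]
        exact h0
  have hd3 : dn nu 3 = dn lam 3 := by
    apply dn_congr
    intro i hi
    rw [← exfin nu i, ← exfin lam i, hex, g3 _ hi]
  have e1 : ex nu 1 + c = ex lam 1 := by
    rw [hex, g12 1 le_rfl (by norm_num)]
    omega
  have e2 : ex nu 2 + c = ex lam 2 := by
    rw [hex, g12 2 (by norm_num) le_rfl]
    omega
  refine ⟨nu, ?_, ?_, e1, e2, fun i hi => by rw [hex, g3 i hi]⟩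
  · intro i j hij
    rw [← exfin nu i, ← exfin nu j, hex, hex]
    exact hanti _ _ hij
  · have a1 : dn nu 0 = ex nu 0 + dn nu 1 := dn_succ nu 0
    have a2 : dn nu 1 = ex nu 1 + dn nu 2 := dn_succ nu 1
    have a3 : dn nu 2 = ex nu 2 + dn nu 3 := dn_succ nu 2
    have a4 : dn lam 1 = ex lam 1 + dn lam 2 := dn_succ lam 1
    have a5 : dn lam 2 = ex lam 2 + dn lam 3 := dn_succ lam 2
    have a6 : ex nu 0 = T - (dn lam 1 - 2 * c) := by rw [hex, g0]
    rw [← dn_zero nu]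
    omega

/-- The hole with more than three rows, some of them possibly zero. -/
lemma core (hG : AsmG) (hM : MarkH) (hC : LBC) (hR' : LBR) {a b m X : ℕ}
    {lam : Fin (m + 1) → ℕ} (hm : 3 ≤ m)
    (hlam : Antitone lam) (hsum : ∑ i, lam i = a * b)
    (hpos : (∀ i, 0 < lam i) ∨ m + 1 ≤ X ^ 57) (hab : a < b) (h2a : 2 * a ≤ dn lam 1)
    (he : (dn lam 1 - a - ex lam 2) ^ 2 ≤ X * dn lam 1) (hXa : X ^ 20000 ≤ a)
    (hlogX : 10 ^ 12 * (1 + Real.log a) ^ 7 ≤ X) (hw : dn lam 1 * X ^ 13000 ≤ a ^ 2) :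
    plethMult a b (m + 1) lam ≤ plethMult b a (m + 1) lam := by
  have ha : 1 ≤ a := by
    by_contra hcon
    have h0 : a = 0 := by omega
    subst h0
    have h1 : (10 : ℝ) ^ 12 ≤ X := by
      have h2 : Real.log ((0 : ℕ) : ℝ) = 0 := by simp
      rw [h2] at hlogX
      norm_num at hlogX ⊢
      exact hlogX
    have h3 : 10 ^ 12 ≤ X := by exact_mod_cast h1
    have h4 : 1 ≤ X ^ 20000 := Nat.one_le_pow _ _ (by omega)
    omega
  obtain ⟨hX, hl1, hl6, K, hK1, hK2, hK3⟩ := X_facts ha hlogX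
  have hX1 : 1 ≤ X := le_trans (by norm_num) hX
  have hXp : ∀ i j, i ≤ j → X ^ i ≤ X ^ j := fun i j hij => Nat.pow_le_pow_right hX1 hij
  have hXpos : ∀ i, 1 ≤ X ^ i := fun i => Nat.one_le_pow _ _ hX1
  have hXp1 : ∀ j, 1 ≤ j → X ≤ X ^ j := fun j hj => by
    have := hXp 1 j hj
    rwa [pow_one] at this
  have hXX : ∀ i j : ℕ, i + 1 ≤ j → 10 ^ 12 * X ^ i ≤ X ^ j := by
    intro i j hij
    refine le_trans ?_ (hXp (i + 1) j hij)
    rw [pow_succ, mul_comm]
    exact Nat.mul_le_mul_left _ hX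
  obtain ⟨w, hwdef⟩ : ∃ w, w = dn lam 1 := ⟨_, rfl⟩
  rw [← hwdef] at h2a he hw
  have hdn1 : w = ex lam 1 + dn lam 2 := by rw [hwdef, dn_succ]
  have hdn2 : dn lam 2 = ex lam 2 + dn lam 3 := dn_succ lam 2
  have h21 : ex lam 2 ≤ ex lam 1 := exanti hlam (by norm_num)
  obtain ⟨e, hedef⟩ : ∃ e, e = w - a - ex lam 2 := ⟨_, rfl⟩
  rw [← hedef] at he
  have hea : e * X ^ 6499 ≤ a := by
    have h2 : (e * X ^ 6499) ^ 2 ≤ a ^ 2 := by
      calc (e * X ^ 6499) ^ 2 = e ^ 2 * X ^ 12998 := by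
            rw [mul_pow, ← pow_mul]
        _ ≤ (X * w) * X ^ 12998 := Nat.mul_le_mul_right _ he
        _ = w * X ^ 12999 := by
            rw [show (12999 : ℕ) = 12998 + 1 by norm_num, pow_succ]
            ring
        _ ≤ w * X ^ 13000 := Nat.mul_le_mul_left _ (hXp _ _ (by norm_num))
        _ ≤ a ^ 2 := hw
    exact (Nat.pow_le_pow_iff_left (by norm_num)).1 h2
  have heX : ∀ i, i + 1 ≤ 6499 → 10 ^ 12 * (X ^ i * e) ≤ a := by
    intro i hi
    calc 10 ^ 12 * (X ^ i * e) = (10 ^ 12 * X ^ i) * e := by ring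
      _ ≤ X ^ 6499 * e := Nat.mul_le_mul_right _ (hXX i 6499 hi)
      _ = e * X ^ 6499 := mul_comm _ _
      _ ≤ a := hea
  have hea0 : 10 ^ 12 * e ≤ a := by
    have := heX 0 (by norm_num)
    rwa [pow_zero, one_mul] at this
  have f1 : ex lam 1 + dn lam 3 ≤ a + e := by omega
  have f2 : a ≤ e + ex lam 2 := by omega
  have f3 : dn lam 3 ≤ 2 * e := by omega
  have f4 : w ≤ 2 * a + 2 * e := by omega
  have hXbig : 10 ^ 12 ≤ a := (hX.trans (hXp1 20000 (by norm_num))).trans hXa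
  have hwa : w + 1 ≤ a ^ 2 := by
    have h3 : w * 2 ≤ w * X ^ 13000 := by
      apply Nat.mul_le_mul_left
      have := hXp1 13000 (by norm_num)
      omega
    omega
  -- `Z`
  obtain ⟨Z, hZ⟩ : ∃ Z, Z = Nat.sqrt w := ⟨_, rfl⟩
  have hZ1 : Z ^ 2 ≤ w := by
    rw [hZ]
    exact Nat.sqrt_le' w
  have hZ2 : w < (Z + 1) ^ 2 := by
    rw [hZ]
    exact Nat.lt_succ_sqrt' w
  have hZa : Z * X ^ 6500 ≤ a := by
    have h2 : (Z * X ^ 6500) ^ 2 ≤ a ^ 2 := by
      calc (Z * X ^ 6500) ^ 2 = Z ^ 2 * X ^ 13000 := by rw [mul_pow, ← pow_mul]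
        _ ≤ w * X ^ 13000 := Nat.mul_le_mul_right _ hZ1
        _ ≤ a ^ 2 := hw
    exact (Nat.pow_le_pow_iff_left (by norm_num)).1 h2
  have hZX : X ^ 9999 ≤ Z := by
    by_contra hcon
    have h2 : Z + 1 ≤ X ^ 9999 := by omega
    have h3 : (Z + 1) ^ 2 ≤ (X ^ 9999) ^ 2 := Nat.pow_le_pow_left h2 2
    have h5 : (X ^ 9999) ^ 2 ≤ X ^ 20000 := by
      rw [← pow_mul]
      exact Nat.pow_le_pow_right hX1 (by norm_num)
    omega
  have hZXa : ∀ i, i + 1 ≤ 6500 → 10 ^ 12 * (Z * X ^ i) ≤ a := by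
    intro i hi
    calc 10 ^ 12 * (Z * X ^ i) = Z * (10 ^ 12 * X ^ i) := by ring
      _ ≤ Z * X ^ 6500 := Nat.mul_le_mul_left _ (hXX i 6500 hi)
      _ ≤ a := hZa
  have hZpos : 1 ≤ Z := (hXpos 9999).trans hZX
  have hZbig : 10 ^ 12 ≤ Z := hX.trans ((hXp1 9999 (by norm_num)).trans hZX)
  have hwZ : w ≤ 2 * Z ^ 2 := by
    have e1 : (Z + 1) ^ 2 = Z ^ 2 + 2 * Z + 1 := by ring
    have e2 : Z * 4 ≤ Z * Z := Nat.mul_le_mul_left _ (by omega)
    have e3 : Z ^ 2 = Z * Z := sq Z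
    rw [← e3] at e2
    omega
  -- `V`
  obtain ⟨V, hV⟩ : ∃ V, V = X ^ 58 := ⟨_, rfl⟩
  have hVX : X ≤ V := by
    rw [hV]
    exact hXp1 58 (by norm_num)
  have hV6 : 10 ^ 6 ≤ V := by omega
  have hV20 : V ^ 20 ≤ Z := by
    rw [hV, ← pow_mul]
    exact (hXp _ _ (by norm_num)).trans hZX
  obtain ⟨hk1, hk2, hk15, hkZ, hkX, hZV⟩ := k0_facts hV6 hV20
  obtain ⟨k, hk⟩ : ∃ k, k = Z / V ^ 5 := ⟨_, rfl⟩
  rw [← hk] at hk1 hk2 hk15 hkZ hkX
  have hkpos : 0 < k := by omega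
  have hkw : w ≤ k * (w / k + 1) := by
    have h := Nat.div_add_mod w k
    have h' := Nat.mod_lt w hkpos
    have e : k * (w / k + 1) = k * (w / k) + k := by ring
    omega
  -- the shape
  obtain ⟨κ, hκ⟩ : ∃ κ, κ = (a + 6) / 3 := ⟨_, rfl⟩
  have hκ1 : a + 4 ≤ 3 * κ := by omega
  have hκ2 : 3 * κ ≤ a + 6 := by omega
  have hl3 : ex lam 3 ≤ 2 * e := (ex_le_dn lam 3).trans f3
  have hT : dn lam 1 + ex lam 1 ≤ 2 * k * (w / k + 1) := by
    have e1 : 2 * k * (w / k + 1) = 2 * (k * (w / k + 1)) := by ring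
    omega
  obtain ⟨nu, hnu, hnusum, hnu1, hnu2, hnu3⟩ :=
    exists_nu hm hlam (c := 2 * κ) (T := 2 * k * (w / k + 1)) (by omega) hT
  have hlow : low 3 nu = low 3 lam := by
    funext i
    exact hnu3 _ (by omega)
  have hn3 : ex nu 3 ≤ 2 * e := by
    rw [hnu3 3 le_rfl]
    exact hl3
  have hn2 : a ≤ 4 * ex nu 2 := by omega
  -- the hypotheses of the lower bound
  have hf1 : Z * V ^ 14 ≤ 2 * ex nu 2 := by
    have e1 : Z * V ^ 14 = Z * X ^ 812 := by rw [hV, ← pow_mul]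
    have e2 := hZXa 812 (by norm_num)
    rw [e1]
    omega
  have htl : V ^ 6 * (3 * ex nu 3 + ∑ i, low 3 nu i) ≤ w := by
    rw [hlow, sum_low, hV, ← pow_mul]
    have e2 := heX 348 (by norm_num)
    calc X ^ (58 * 6) * (3 * ex nu 3 + dn lam 3) ≤ X ^ 348 * (8 * e) := by
          apply Nat.mul_le_mul_left
          omega
      _ = 8 * (X ^ 348 * e) := by ring
      _ ≤ w := by omega
  have hgap : ∀ l, 2 ≤ l → l ≤ 3 →
      (∀ j, 2 ≤ j → j ≤ 3 → ex nu (j - 1) - ex nu j ≤ ex nu (l - 1) - ex nu l) →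
      w ≤ 2 * 3 ^ 2 * (ex nu (l - 1) - ex nu l) := by
    intro l _ _ hlmax
    have e1 := hlmax 3 (by norm_num) le_rfl
    simp only [show 3 - 1 = 2 by norm_num] at e1
    have e2 : a ≤ 4 * (ex nu 2 - ex nu 3) := by omega
    have e3 : 2 * 3 ^ 2 * (ex nu (l - 1) - ex nu l) = 18 * (ex nu (l - 1) - ex nu l) := by
      norm_num
    rw [e3]
    omega
  have hlog : 100 * ((3 : ℕ) : ℝ) * Real.log (w + 1) ≤ (V : ℝ) := by
    have e1 : Real.log ((w : ℝ) + 1) ≤ 2 * Real.log a := by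
      have e2 : Real.log ((w : ℝ) + 1) ≤ Real.log ((a : ℝ) ^ 2) := by
        apply Real.log_le_log (by positivity)
        exact_mod_cast hwa
      rw [Real.log_pow] at e2
      exact_mod_cast e2
    have e4 : (X : ℝ) ≤ (V : ℝ) := by exact_mod_cast hVX
    have e5 : 0 ≤ Real.log a := Real.log_nonneg (by exact_mod_cast ha)
    push_cast
    linarith
  have hR4 : 10 ^ 6 * 3 ^ 4 ≤ V := by
    have : 10 ^ 6 * 3 ^ 4 ≤ 10 ^ 12 := by norm_num
    omega
  have hb0 : w / k + 1 + 1 + 0 * 0 ≤ Z * V ^ 8 :=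
    b0_small (R := 0) (r := 0) (t := 0) hV6 (Nat.zero_le _) le_rfl (Nat.zero_le _) hk2 hkpos hwZ
      hZpos
  have hZV8 : 10 ^ 12 * (Z * V ^ 8) ≤ a := by
    have e1 : Z * V ^ 8 = Z * X ^ 464 := by rw [hV, ← pow_mul]
    rw [e1]
    exact hZXa 464 (by norm_num)
  have hZ57 : X ^ 57 ≤ Z := (hXp _ _ (by norm_num)).trans hZX
  have hwX : 4 * w ≤ (X ^ 57) ^ K := by
    have h2 : a ^ 2 ≤ a ^ 3 := Nat.pow_le_pow_right ha (by norm_num)
    have h3 : 2 ^ K ≤ (X ^ 57) ^ K := Nat.pow_le_pow_left (by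
      have := hXp1 57 (by norm_num)
      omega) K
    omega
  refine hG a b m 2 (X ^ 57) Z K w lam hlam hsum ?_ (by norm_num) hm hwdef hZ1 hZ2 hK1 ?_ hZ57
    hwX ?_ hab ?_ ?_ (by omega) ?_
  · -- rows
    rcases hpos with h | h
    · exact Or.inl h
    · refine Or.inr (h.trans (hZ57.trans ?_))
      exact Nat.le_mul_of_pos_right _ (Nat.pow_pos (hXpos 57))
  · have := hXp1 57 (by norm_num)
    omega
  · -- 100 K (Z + 1) X1 ≤ a
    calc 100 * K * ((Z + 1) * X ^ 57) ≤ X * ((2 * Z) * X ^ 57) :=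
          Nat.mul_le_mul (by omega) (Nat.mul_le_mul_right _ (by omega))
      _ = 2 * (Z * X ^ 58) := by ring
      _ ≤ a := by
          have e2 := hZXa 58 (by norm_num)
          omega
  · -- (Z + 1) X1 ^ 3 ≤ a
    calc (Z + 1) * (X ^ 57) ^ 3 ≤ (2 * Z) * (X ^ 57) ^ 3 := Nat.mul_le_mul_right _ (by omega)
      _ = 2 * (Z * X ^ 171) := by
          rw [← pow_mul]
          ring
      _ ≤ a := by
          have e2 := hZXa 171 (by norm_num)
          omega
  · -- Z X1 ^ 2 + 2 ≤ a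
    have e1 : Z * (X ^ 57) ^ 2 = Z * X ^ 114 := by rw [← pow_mul]
    have e2 := hZXa 114 (by norm_num)
    have e3 : 1 * 1 ≤ Z * X ^ 114 := Nat.mul_le_mul hZpos (hXpos 114)
    rw [e1]
    omega
  · intro hnJ
    have hJ2 : 2 * (Z * (X ^ 57) ^ 2) ≤ Z * V ^ 2 := by
      calc 2 * (Z * (X ^ 57) ^ 2) = Z * (2 * X ^ 114) := by
            rw [← pow_mul]
            ring
        _ ≤ Z * X ^ 116 := by
            apply Nat.mul_le_mul_left
            have e2 := hXX 114 116 (by norm_num)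
            omega
        _ = Z * V ^ 2 := by rw [hV, ← pow_mul]
    have hJpos : 1 ≤ Z * (X ^ 57) ^ 2 := Nat.mul_pos hZpos (Nat.pow_pos (hXpos 57))
    have hlb := low_bound hC hR' (n := m + 1) (J := Z * V ^ 2) (R := 3) (X := V) (Z := Z) (w := w)
      nu hnu le_rfl (by omega) (by omega) hZ1 hwZ le_rfl hR4 hV20 (2 * ex nu 2) hf1 le_rfl
      (by omega) htl hlog (by rw [hnusum, hk]) hgap
    rw [← hk] at hlb
    -- the mark
    have hSpos : Z ≤ (Z + 1) * X ^ 57 := by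
      calc Z ≤ (Z + 1) * 1 := by omega
        _ ≤ (Z + 1) * X ^ 57 := Nat.mul_le_mul_left _ (hXpos 57)
    have hkS : 2 * k < (Z + 1) * X ^ 57 := by
      calc 2 * k < 10 ^ 12 * (Z + 1) := by omega
        _ ≤ (Z + 1) * X ^ 57 := by
            rw [mul_comm]
            apply Nat.mul_le_mul_left
            exact hX.trans (hXp1 57 (by norm_num))
    have htln : ∀ i : Fin m, tl nu i = ex nu ((i : ℕ) + 1) := by
      intro i
      exact (exfin nu i.succ).symm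
    have htll : ∀ i : Fin m, tl lam i = ex lam ((i : ℕ) + 1) := by
      intro i
      exact (exfin lam i.succ).symm
    have hmark := hM m ((Z + 1) * X ^ 57) a (2 * k) (w / k + 1) κ lam nu (by omega) (by omega)
      hkS hκ1 hκ2 (by omega) (by
        have h1 : tl nu ⟨0, by omega⟩ ≤ ∑ i, tl nu i :=
          Finset.single_le_sum (f := tl nu) (fun _ _ => Nat.zero_le _) (Finset.mem_univ _)
        rw [htln] at h1
        simp only [zero_add] at h1
        have h2 : ex nu 2 ≤ ex nu 1 := exanti hnu (by norm_num)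
        omega) (by
        intro i
        rw [htln, htll, two]
        rcases Nat.lt_or_ge (i : ℕ) 2 with hi | hi
        · rw [if_pos hi]
          interval_cases h : (i : ℕ)
          · exact hnu1.symm
          · exact hnu2.symm
        · rw [if_neg (by omega), add_zero, hnu3 _ (by omega)])
    -- together
    have hJge : Z * (X ^ 57) ^ 2 ≤ Z * V ^ 2 := by omega
    have hgt : gt (m + 1 - 3) (Z * (X ^ 57) ^ 2) (low 3 lam) ≤
        gt (m + 1 - 3) (Z * V ^ 2) (low 3 nu) := by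
      rw [hlow]
      exact gt_mono_letters' (low_anti hlam 3) hJge
    have hwk : w / k + 1 ≤ w + 1 := by
      have := Nat.div_le_self w k
      omega
    have hfac : (w / k + 1) * (w + 1) ^ (2 * (Z * (X ^ 57) ^ 2)) ≤
        (w + 1) ^ (3 * (Z * V ^ 2)) := by
      calc (w / k + 1) * (w + 1) ^ (2 * (Z * (X ^ 57) ^ 2))
          ≤ (w + 1) * (w + 1) ^ (2 * (Z * (X ^ 57) ^ 2)) := Nat.mul_le_mul_right _ hwk
        _ = (w + 1) ^ (2 * (Z * (X ^ 57) ^ 2) + 1) := (pow_succ' _ _).symm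
        _ ≤ (w + 1) ^ (3 * (Z * V ^ 2)) := Nat.pow_le_pow_right (by omega) (by omega)
    apply Nat.le_of_mul_le_mul_left _ (Nat.succ_pos (w / k))
    calc (w / k + 1) * (2 * ((w + 1) ^ (2 * (Z * (X ^ 57) ^ 2)) *
          gt (m + 1 - (2 + 1)) (Z * (X ^ 57) ^ 2) (low (2 + 1) lam)))
        = 2 * ((w / k + 1) * (w + 1) ^ (2 * (Z * (X ^ 57) ^ 2))) *
          gt (m + 1 - 3) (Z * (X ^ 57) ^ 2) (low 3 lam) := by ring
      _ ≤ 2 * (w + 1) ^ (3 * (Z * V ^ 2)) * gt (m + 1 - 3) (Z * V ^ 2) (low 3 nu) :=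
          Nat.mul_le_mul (Nat.mul_le_mul_left _ hfac) hgt
      _ ≤ plethMult (w / k + 1) (2 * k) (m + 1) nu := hlb
      _ ≤ (w / k + 1) * gT m ((Z + 1) * X ^ 57) (tl lam) 0 (a + 1) := hmark

/-- **(HO5)** the hole. -/
theorem holeX (hG : AsmG) (hM : MarkH) (hC : LBC) (hR' : LBR) : HoleX := by
  rintro a b n X lam ⟨hlam, hsum, hpos, hab, h2a, he, hXa, hlogX, hw⟩
  rcases Nat.lt_or_ge 3 n with hn | hn
  · obtain ⟨m, rfl⟩ : ∃ m, n = m + 1 := ⟨n - 1, by omega⟩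
    exact core hG hM hC hR' (by omega) hlam hsum (Or.inl hpos) hab h2a he hXa hlogX hw
  · obtain ⟨mu, hmu, hmusum, hmuex, hmudn, hmup⟩ :=
      PL81.pad_rows (a := 3 + 1) lam hlam (by omega)
    have hX2 : 4 ≤ X ^ 57 := by
      have h0 : 0 ≤ Real.log a := Real.log_natCast_nonneg a
      have h1 : (4 : ℝ) ≤ X := by
        have h2 : (1 : ℝ) ≤ (1 + Real.log a) ^ 7 := one_le_pow₀ (by linarith)
        linarith
      have h3 : 4 ≤ X := by exact_mod_cast h1
      exact h3.trans (Nat.le_self_pow (by norm_num) X)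
    rw [← hmup a b, ← hmup b a]
    exact core hG hM hC hR' le_rfl hmu (by rw [hmusum, hsum]) (Or.inr hX2) hab
      (by rw [hmudn]; exact h2a) (by rw [hmudn, hmuex]; exact he) hXa hlogX
      (by rw [hmudn]; exact hw)

end Vale.Agent.P181.HO.H237
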